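/-
P235-LL (helper868).  (M5): contraction of a piece onto one of its vertices is a minor of `T(U,P)`.
-/
import Vale.Agent.P235.LL.H834.GC

set_option linter.all false
set_option autoImplicit false

namespace Vale.Agent.P235.LL.H868

open Relation SimpleGraph H134

variable {V : Type} {G : SimpleGraph V}

/-- one step inside `S` -/
abbrev Stp {X : Type} (Γ : SimpleGraph X) (S : Set X) (a b : X) : Prop := Γ.Adj a b ∧ a ∈ S ∧ b ∈ S

theorem conn_of_reach {X : Type} {Γ : SimpleGraph X} {S : Set X} {r : X} (hr : r ∈ S)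
    (h : ∀ x ∈ S, ReflTransGen (Stp Γ S) r x) : (Γ.induce S).Connected := by
  have key : ∀ x, ReflTransGen (Stp Γ S) r x → ∀ hx : x ∈ S,
      (Γ.induce S).Reachable ⟨r, hr⟩ ⟨x, hx⟩ := by
    intro x e
    induction e with
    | refl => intro _; exact Reachable.refl _
    | @tail b c _ hbc ih =>
      intro hc
      have hadj : (Γ.induce S).Adj ⟨b, hbc.2.1⟩ ⟨c, hc⟩ := hbc.1
      exact (ih hbc.2.1).trans hadj.reachable
  have : Nonempty S := ⟨⟨r, hr⟩⟩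
  exact ⟨fun x y => (key x (h x x.2) x.2).symm.trans (key y (h y y.2) y.2)⟩

/-- the predecessor of a nonminimal element -/
theorem exists_pred [Finite V] {P : Set V} {w : V → ℝ} {p c : V} (hp : p ∈ P) (hc : c ∈ P)
    (h : w c < w p) : ∃ p', ConsIn P w p' p ∧ w c ≤ w p' := by
  obtain ⟨p', hp', hmax⟩ := Set.exists_max_image {x | x ∈ P ∧ w x < w p} w (Set.toFinite _)
    ⟨c, hc, h⟩
  refine ⟨p', ⟨hp'.1, hp, hp'.2, fun x hx => ?_⟩, hmax c ⟨hc, h⟩⟩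
  by_cases hxp : w x < w p
  · exact Or.inl (hmax x ⟨hx, hxp⟩)
  · exact Or.inr (not_lt.1 hxp)

/-- the vertices of `P` in `T(U,P)` -/
def SP (U P : Set V) : Set (Option {v : V // v ∈ U ∨ v ∈ P}) :=
  {x | ∃ p, ∃ hp : p ∈ P, x = some ⟨p, Or.inr hp⟩}

theorem conn_SP [Finite V] {U P : Set V} {w : V → ℝ} (hw : Set.InjOn w P) {p0 : V}
    (hp0 : p0 ∈ P) (hmin0 : ∀ p ∈ P, w p0 ≤ w p) :
    ((TG G U P w).induce (SP U P)).Connected := by
  refine conn_of_reach (r := some ⟨p0, Or.inr hp0⟩) ⟨p0, hp0, rfl⟩ ?_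
  by_contra hcon
  push Not at hcon
  obtain ⟨x, ⟨p, hp, rfl⟩, hno⟩ := hcon
  obtain ⟨p, ⟨hp, hno⟩, hmin⟩ := Set.exists_min_image
    {p | ∃ h : p ∈ P, ¬ ReflTransGen (Stp (TG G U P w) (SP U P)) (some ⟨p0, Or.inr hp0⟩)
        (some ⟨p, Or.inr h⟩)} w (Set.toFinite _) ⟨p, hp, hno⟩
  by_cases h : w p0 < w p
  · obtain ⟨p', hp', -⟩ := exists_pred hp hp0 h
    by_cases h3 : ReflTransGen (Stp (TG G U P w) (SP U P)) (some ⟨p0, Or.inr hp0⟩)
        (some ⟨p', Or.inr hp'.1⟩)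
    · refine hno (h3.tail ⟨TG_some_some.2 ⟨?_, Or.inr (Or.inl hp')⟩, ⟨p', hp'.1, rfl⟩,
        ⟨p, hp, rfl⟩⟩)
      intro e
      have e' : p' = p := e
      subst e'
      exact lt_irrefl _ hp'.2.2.1
    · exact absurd (hmin p' ⟨hp'.1, h3⟩) (not_le.2 hp'.2.2.1)
  · have : p0 = p := hw hp0 hp (le_antisymm (hmin0 p hp) (not_lt.1 h))
    subst this
    exact hno ReflTransGen.refl

theorem rowM5 : RowM5 := by
  intro V _ G U P w w' b0 hUP hb0 hw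
  obtain ⟨p0, hp0, hmin0⟩ := Set.exists_min_image P w (Set.toFinite _) ⟨b0, hb0⟩
  have hne : ∀ v ∈ U, v ∉ P := fun v h1 h2 => Set.disjoint_left.1 hUP h1 h2
  have hb0U : b0 ∉ U := fun h => hne b0 h hb0
  refine tg_minor (Set.disjoint_singleton_right.2 hb0U) (fun v hv => some ⟨v, Or.inl hv⟩)
    (fun _ => SP U P) {x | x = none} ?_ ?_ ?_ ?_ ?_ ?_ ?_ ?_ ?_ ?_ ?_ ?_ ?_
  · intro u hu v hv e
    have h2 := congrArg Subtype.val (Option.some.inj e)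
    exact h2
  · intro b _
    exact conn_SP hw hp0 hmin0
  · exact conn_singleton _ _
  · intro b hb c hc hbc
    exact absurd ((Set.mem_singleton_iff.1 hb).trans (Set.mem_singleton_iff.1 hc).symm) hbc
  · intro b _
    rw [Set.disjoint_left]
    rintro x ⟨p, hp, rfl⟩ h
    have h' : (some ⟨p, Or.inr hp⟩ : Option {v : V // v ∈ U ∨ v ∈ P}) = none := h
    simp at h'
  · rintro u hu b _ ⟨p, hp, e⟩
    have h2 : u = p := congrArg Subtype.val (Option.some.inj e)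
    subst h2
    exact hne u hu hp
  · intro u hu h
    have h' : (some ⟨u, Or.inl hu⟩ : Option {v : V // v ∈ U ∨ v ∈ P}) = none := h
    simp at h'
  · intro u hu v hv h
    obtain ⟨h0, h1 | h1 | h1⟩ := h
    · exact TG_some_some.2 ⟨h0, Or.inl ⟨h1.1, Or.inl hu⟩⟩
    · exact absurd (h1.1 ▸ hu) hb0U
    · exact absurd (h1.1 ▸ hv) hb0U
  · intro u hu b hb h
    obtain ⟨h0, h1 | h1 | h1⟩ := h
    · exact absurd ⟨hu, (Set.mem_singleton_iff.1 hb) ▸ hb0⟩ h1.2.1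
    · exact absurd (h1.1 ▸ hu) hb0U
    · obtain ⟨-, -, b', hb', hub⟩ := h1
      refine ⟨some ⟨b', Or.inr hb'⟩, ⟨b', hb', rfl⟩, TG_some_some.2 ⟨?_, Or.inl ⟨hub, Or.inl hu⟩⟩⟩
      exact hub.ne
  · intro b c h
    have e1 : b = b0 := h.1
    have e2 : c = b0 := h.2.1
    have h3 := h.2.2.1
    rw [e1, e2] at h3
    exact absurd h3 (lt_irrefl _)
  · intro b _ _
    exact ⟨some ⟨p0, Or.inr hp0⟩, ⟨p0, hp0, rfl⟩, none, rfl, Or.inl ⟨hp0, hmin0⟩⟩
  · intro b _ _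
    exact ⟨some ⟨p0, Or.inr hp0⟩, ⟨p0, hp0, rfl⟩, none, rfl, Or.inl ⟨hp0, hmin0⟩⟩
  · rintro u hu ⟨b, hbU, hb0', h0, h1 | h1 | h1⟩
    · exact ⟨none, rfl, Or.inr (Or.inr ⟨hu, b, hbU, fun hbP => h1.2.1 ⟨hu, hbP⟩, h1.1⟩)⟩
    · exact absurd (h1.1 ▸ hu) hb0U
    · exact absurd h1.1 hb0'

end Vale.Agent.P235.LL.H868
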