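/-
P235-LL (helper868).  SINGLE: total gain of a point, from the two-move inequality `RowLin`.
-/
import Vale.Agent.P235.LL.Rows

set_option linter.all false
set_option autoImplicit false

namespace Vale.Agent.P235.LL.H868

open Vale.Agent.P235 Vale.Agent.P235.LL Finset

variable {V : Type} {G : SimpleGraph V} {ℓ : Sym2 V → ℝ}

theorem dto_nonneg (hℓ : ∀ e ∈ G.edgeSet, 0 < ℓ e) (S : Set V) (x : V) : 0 ≤ dto G ℓ S x :=
  Real.iInf_nonneg fun _ => pathDist_nonneg hℓ _ _

theorem dto_anti (hℓ : ∀ e ∈ G.edgeSet, 0 < ℓ e) {S T : Set V} (h : S ⊆ T) (hS : S.Nonempty)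
    (x : V) : dto G ℓ T x ≤ dto G ℓ S x := by
  have : Nonempty S := hS.to_subtype
  refine le_ciInf fun b => ?_
  exact ciInf_le ⟨0, by rintro _ ⟨c, rfl⟩; exact pathDist_nonneg hℓ _ _⟩ (⟨b, h b.2⟩ : T)

theorem mass_nonneg (D : Dom V) (k : Fin 3 × Bool) (j : ℕ) : 0 ≤ D.mass k j := by
  unfold Dom.mass
  split_ifs <;> positivity

theorem Jm_mem [Finite V] (D : Dom V) (k : Fin 3 × Bool) :
    1 ≤ D.Jm k ∧ ∀ v ∈ D.U, 0 < D.s k v → 1 ≤ 2 ^ (D.Jm k) * D.s k v := by
  have hne : {j : ℕ | 1 ≤ j ∧ ∀ v ∈ D.U, 0 < D.s k v → 1 ≤ 2 ^ j * D.s k v}.Nonempty := by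
    have hex : ∀ v : V, ∃ j : ℕ, 0 < D.s k v → ∀ i, j ≤ i → 1 ≤ 2 ^ i * D.s k v := by
      intro v
      by_cases hv : 0 < D.s k v
      · obtain ⟨j, hj⟩ := pow_unbounded_of_one_lt (1 / D.s k v) (one_lt_two (α := ℝ))
        refine ⟨j, fun _ i hi => ?_⟩
        have h1 : (2 : ℝ) ^ j ≤ 2 ^ i := pow_le_pow_right₀ one_le_two hi
        have h2 : 1 < 2 ^ j * D.s k v := by
          rw [div_lt_iff₀ hv] at hj
          exact hj
        exact h2.le.trans (mul_le_mul_of_nonneg_right h1 hv.le)
      · exact ⟨0, fun h => absurd h hv⟩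
    choose J hJ using hex
    have := Fintype.ofFinite V
    refine ⟨1 + ∑ v, J v, by omega, fun v _ hv => hJ v hv _ ?_⟩
    have h1 : J v ≤ ∑ v, J v := Finset.single_le_sum (f := J) (fun _ _ => Nat.zero_le _)
      (Finset.mem_univ v)
    omega
  exact Nat.sInf_mem hne

theorem sum_mass [Finite V] (D : Dom V) (k : Fin 3 × Bool) :
    ∑ j ∈ range (D.Jm k), D.mass k j = 1 := by
  obtain ⟨h1, -⟩ := Jm_mem D k
  obtain ⟨m, hm⟩ : ∃ m, D.Jm k = m + 1 := ⟨D.Jm k - 1, by omega⟩
  rw [hm, sum_range_succ]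
  have e1 : D.mass k m = (15 / 16) ^ m := by
    unfold Dom.mass
    rw [if_pos hm.symm]
  have e2 : ∀ j ∈ range m, D.mass k j = 1 / 16 * (15 / 16) ^ j := by
    intro j hj
    unfold Dom.mass
    rw [if_neg]
    rw [hm]
    have := mem_range.1 hj
    omega
  rw [e1, sum_congr rfl e2]
  clear e1 e2 hm
  induction m with
  | zero => simp
  | succ m ih =>
    rw [sum_range_succ, pow_succ]
    linarith

/-- `E` is monotone -/
theorem E_mono (D : Dom V) {f g : Fin 3 × Bool → ℕ → ℝ} (h : ∀ k j, f k j ≤ g k j) :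
    Sys.E D f ≤ Sys.E D g := by
  unfold Sys.E
  refine sum_le_sum fun k _ => mul_le_mul_of_nonneg_left ?_ (by norm_num)
  exact sum_le_sum fun j _ => mul_le_mul_of_nonneg_left (h k j) (mass_nonneg D k j)

theorem E_nonneg (D : Dom V) {f : Fin 3 × Bool → ℕ → ℝ} (h : ∀ k j, 0 ≤ f k j) :
    0 ≤ Sys.E D f := by
  unfold Sys.E
  refine sum_nonneg fun k _ => mul_nonneg (by norm_num) ?_
  exact sum_nonneg fun j _ => mul_nonneg (mass_nonneg D k j) (h k j)

theorem E_add (D : Dom V) (f g : Fin 3 × Bool → ℕ → ℝ) :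
    Sys.E D (fun k j => f k j + g k j) = Sys.E D f + Sys.E D g := by
  unfold Sys.E
  rw [← sum_add_distrib]
  refine sum_congr rfl fun k _ => ?_
  rw [← mul_add, ← sum_add_distrib]
  congr 1
  exact sum_congr rfl fun j _ => by ring

theorem E_sub (D : Dom V) (f g : Fin 3 × Bool → ℕ → ℝ) :
    Sys.E D (fun k j => f k j - g k j) = Sys.E D f - Sys.E D g := by
  unfold Sys.E
  rw [← sum_sub_distrib]
  refine sum_congr rfl fun k _ => ?_
  rw [← mul_sub, ← sum_sub_distrib]
  congr 1
  exact sum_congr rfl fun j _ => by ring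

theorem E_smul (D : Dom V) (a : ℝ) (f : Fin 3 × Bool → ℕ → ℝ) :
    Sys.E D (fun k j => a * f k j) = a * Sys.E D f := by
  unfold Sys.E
  rw [mul_sum]
  refine sum_congr rfl fun k _ => ?_
  have h : ∑ j ∈ range (D.Jm k), D.mass k j * (a * f k j) =
      a * ∑ j ∈ range (D.Jm k), D.mass k j * f k j := by
    rw [mul_sum]
    exact sum_congr rfl fun j _ => by ring
  change 1 / 6 * ∑ j ∈ range (D.Jm k), D.mass k j * (a * f k j) = _
  rw [h]
  ring

theorem E_const [Finite V] (D : Dom V) (a : ℝ) : Sys.E D (fun _ _ => a) = a := by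
  unfold Sys.E
  have : ∀ k ∈ (univ : Finset (Fin 3 × Bool)), (1 / 6 : ℝ) * ∑ j ∈ range (D.Jm k), D.mass k j * a =
      a / 6 := by
    intro k _
    rw [← sum_mul, sum_mass]
    ring
  rw [sum_congr rfl this, sum_const, card_univ]
  simp
  ring

theorem rowSingle (hlin : RowLin) : RowSingle := by
  classical
  obtain ⟨K1, K2, hK1, hK2, hlin⟩ := hlin
  set A : ℝ := max K1 1 with hA
  have hA1 : 1 ≤ A := le_max_right _ _
  have hKA : K1 ≤ A := le_max_left _ _
  refine ⟨7 / (8 * (A + K2)), by positivity, ?_⟩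
  intro V _ G ℓ K hG hℓ hK S
  have hN : ∀ D k j x, 0 ≤ S.N D k j x := by
    intro D k j x
    unfold Sys.N
    split_ifs
    · exact dto_nonneg hℓ _ _
    · unfold Sys.Nd
      refine Real.iInf_nonneg fun e => ?_
      have h1 := dto_nonneg hℓ D.Uᶜ e.1.2
      have h2 : 0 ≤ ∑ i, |(S.ch D k j x).X ℓ i e.1.1 e.1.2 - (S.ch D k j x).c i x| :=
        sum_nonneg fun _ _ => abs_nonneg _
      have h3 : 0 ≤ 2 ^ (j + 1) * |D.cv k e.1.2 - D.c k x| := by positivity
      linarith
  have hEN : ∀ D x, 0 ≤ S.EN D x := fun D x => E_nonneg D fun k j => hN D k j x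
  -- the child
  have hch : ∀ D, S.Good D → ∀ k j, ∀ x, x ∉ D.vis k (j + 1) → S.Good (S.ch D k j x) ∧
      (S.ch D k j x).U = compSet G (D.vis k (j + 1)) x := by
    intro D hD k j x hx
    have hex : ∃ D', S.Good D' ∧ D'.U = compSet G (D.vis k (j + 1)) x ∧ Link G D D' k (j + 1) :=
      S.child D hD k j x hx
    have e : S.ch D k j x = hex.choose := by
      unfold Sys.ch Sys.chS
      rw [dif_pos hex]
    rw [e]
    exact ⟨hex.choose_spec.1, hex.choose_spec.2.1⟩
  have hUvis : ∀ (D : Dom V) k j, D.Uᶜ ⊆ D.vis k (j + 1) := by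
    intro D k j v hv hv'
    exact absurd hv' hv
  have hout : ∀ D, S.Good D → (D.Uᶜ).Nonempty := fun D hD => (S.dom D hD).out
  have hsub : ∀ D, S.Good D → ∀ k j x, x ∉ D.vis k (j + 1) →
      D.vis k (j + 1) ⊆ ((S.ch D k j x).U)ᶜ := by
    intro D hD k j x hx v hv hv'
    rw [(hch D hD k j x hx).2] at hv'
    exact ReachOff.right hv' hv
  have hR1 : ∀ D, S.Good D → ∀ x, 0 ≤ Sys.R1 G ℓ D x := by
    intro D hD x
    refine E_nonneg D fun k j => ?_
    have := dto_anti hℓ (hUvis D k j) (hout D hD) x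
    linarith
  have hR2 : ∀ D, S.Good D → ∀ x, 0 ≤ S.R2 D x := by
    intro D hD x
    refine E_nonneg D fun k j => ?_
    split_ifs with h
    · exact le_rfl
    · exact hR1 _ (hch D hD k j x h).1 x
  -- the induction
  have key : ∀ n D, S.Good D → D.U.ncard ≤ n → ∀ x ∈ D.U,
      dto G ℓ D.Uᶜ x ≤ A * S.SN n D x + K2 * (S.SN n D x - S.EN D x) +
        1 / 16 * (dto G ℓ D.Uᶜ x - Sys.R1 G ℓ D x) +
        1 / 16 * (dto G ℓ D.Uᶜ x - Sys.R1 G ℓ D x - S.R2 D x) := by
    intro n
    induction n with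
    | zero =>
      intro D hD hn x hx
      have : D.U = ∅ := (Set.ncard_eq_zero (Set.toFinite _)).1 (Nat.le_zero.1 hn)
      rw [this] at hx
      exact absurd hx (Set.notMem_empty x)
    | succ n ih =>
      intro D hD hn x hx
      set p := dto G ℓ D.Uᶜ x with hp
      -- quantities of the child
      set q : Fin 3 × Bool → ℕ → ℝ := fun k j =>
        if x ∈ D.vis k (j + 1) then 0 else dto G ℓ (S.ch D k j x).Uᶜ x with hq
      set σ : Fin 3 × Bool → ℕ → ℝ := fun k j =>
        if x ∈ D.vis k (j + 1) then 0 else S.SN n (S.ch D k j x) x with hσ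
      set ρ : Fin 3 × Bool → ℕ → ℝ := fun k j =>
        if x ∈ D.vis k (j + 1) then 0 else Sys.R1 G ℓ (S.ch D k j x) x with hρ
      have hstep : ∀ k j, p ≤ A * S.N D k j x + (A + K2) * σ k j + 1 / 16 * q k j +
          1 / 16 * (q k j - ρ k j) := by
        intro k j
        by_cases h : x ∈ D.vis k (j + 1)
        · have e1 : S.N D k j x = p := by
            unfold Sys.N
            rw [if_pos h]
          have e2 : σ k j = 0 := if_pos h
          have e3 : q k j = 0 := if_pos h
          have e4 : ρ k j = 0 := if_pos h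
          rw [e1, e2, e3, e4]
          have : 0 ≤ p := dto_nonneg hℓ _ _
          nlinarith
        · have e2 : σ k j = S.SN n (S.ch D k j x) x := if_neg h
          have e3 : q k j = dto G ℓ (S.ch D k j x).Uᶜ x := if_neg h
          have e4 : ρ k j = Sys.R1 G ℓ (S.ch D k j x) x := if_neg h
          obtain ⟨hg, hU⟩ := hch D hD k j x h
          have hx' : x ∈ (S.ch D k j x).U := by
            rw [hU]
            exact ReachOff.refl h
          have hcard : (S.ch D k j x).U.ncard ≤ n := by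
            obtain ⟨v, hv, hv1⟩ := (S.dom D hD).one k
            have hss : (S.ch D k j x).U ⊂ D.U := by
              refine ⟨fun y hy => ?_, fun hh => ?_⟩
              · rw [hU] at hy
                by_contra hyU
                exact ReachOff.right hy (hUvis D k j hyU)
              · have h1 := hh hv
                rw [hU] at h1
                refine ReachOff.right h1 fun _ => ⟨by omega, ?_⟩
                rw [hv1, mul_one]
                exact one_le_pow₀ one_le_two
            have := Set.ncard_lt_ncard hss (Set.toFinite _)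
            omega
          have h1 := ih _ hg hcard x hx'
          have h2 := hlin V G ℓ K hG hℓ hK S D hD k j x h
          rw [e2, e3, e4]
          have h3 : K1 * S.N D k j x ≤ A * S.N D k j x :=
            mul_le_mul_of_nonneg_right hKA (hN D k j x)
          rw [← hp] at h2
          linarith
      have hE := E_mono D hstep
      rw [E_const] at hE
      have e1 : Sys.E D (fun k j => A * S.N D k j x + (A + K2) * σ k j + 1 / 16 * q k j +
          1 / 16 * (q k j - ρ k j)) = A * S.EN D x + (A + K2) * Sys.E D σ + 1 / 16 * Sys.E D q +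
          1 / 16 * (Sys.E D q - Sys.E D ρ) := by
        rw [E_add D (fun k j => A * S.N D k j x + (A + K2) * σ k j + 1 / 16 * q k j)
          (fun k j => 1 / 16 * (q k j - ρ k j)),
          E_add D (fun k j => A * S.N D k j x + (A + K2) * σ k j) (fun k j => 1 / 16 * q k j),
          E_add D (fun k j => A * S.N D k j x) (fun k j => (A + K2) * σ k j),
          E_smul D A (fun k j => S.N D k j x), E_smul D (A + K2) σ, E_smul D (1 / 16) q,
          E_smul D (1 / 16) (fun k j => q k j - ρ k j), E_sub D q ρ]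
        rfl
      rw [e1] at hE
      have e2 : S.SN (n + 1) D x = S.EN D x + Sys.E D σ :=
        E_add D (fun k j => S.N D k j x) σ
      have e3 : S.R2 D x = Sys.E D ρ := rfl
      have e4 : Sys.E D q ≤ p - Sys.R1 G ℓ D x := by
        have e5 : Sys.R1 G ℓ D x = p - Sys.E D (fun k j => dto G ℓ (D.vis k (j + 1)) x) := by
          unfold Sys.R1
          rw [E_sub D (fun _ _ => p) (fun k j => dto G ℓ (D.vis k (j + 1)) x), E_const]
        rw [e5, sub_sub_cancel]
        refine E_mono D fun k j => ?_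
        by_cases h : x ∈ D.vis k (j + 1)
        · have e6 : q k j = 0 := if_pos h
          rw [e6]
          exact dto_nonneg hℓ _ _
        · have e6 : q k j = dto G ℓ (S.ch D k j x).Uᶜ x := if_neg h
          rw [e6]
          exact dto_anti hℓ (hsub D hD k j x h) ((hout D hD).mono (hUvis D k j)) x
      rw [e2, e3]
      nlinarith
  intro n D hD hn x hx
  have h1 := key n D hD hn x hx
  have h2 := hR1 D hD x
  have h3 := hR2 D hD x
  have h4 := mul_nonneg hK2 (hEN D x)
  have hpos : 0 < A + K2 := by linarith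
  have h5 : 7 / 8 * dto G ℓ D.Uᶜ x ≤ (A + K2) * S.SN n D x := by linarith
  have h6 : 7 / (8 * (A + K2)) * dto G ℓ D.Uᶜ x = 7 / 8 * dto G ℓ D.Uᶜ x / (A + K2) := by
    field_simp
  rw [h6, div_le_iff₀ hpos]
  linarith

end Vale.Agent.P235.LL.H868
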